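import Vale.Agent.P039.Bz.Stmt
import Vale.Agent.P039.H484.Hall2
import Vale.Agent.P039.H183.Rank

/-! STEP 5: in a spherical web, 3-edge-connected and without nontrivial cuts of three edges, there
are two disjoint matchings between the black vertices and the faces off any root (`Bz.PairStmt`). -/

namespace Vale.Agent.P039.H370

set_option linter.unusedSectionVars false
set_option linter.unusedSimpArgs false

open Vale.Agent.P039.Bn Finset

variable {B W V : Type}

/-- the web of `M` -/
def web (M : PMap B W V) : Sk.Web B W := ⟨M.e⟩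

/-- the faces of the web of `M` -/
def lab (M : PMap B W V) : Sk.Lab (web M) V := ⟨M.c, M.step, M.exact, M.cls, M.surj⟩

section

variable [Fintype B] [Fintype W] [DecidableEq V] (M : PMap B W V) (K : Finset V)

/-- number of faces of `K` at `b` -/
def nb (b : B) : ℕ := (univ.filter fun j : Fin 3 => M.c j b ∈ K).card

/-- edges on faces of `K` -/
def ES : Finset (B × Fin 3) :=
  univ.filter fun p => M.c (p.2 + 1) p.1 ∈ K ∨ M.c (p.2 + 2) p.1 ∈ K

/-- black vertices on faces of `K` -/
def SB : Finset B := univ.filter fun b => ∃ j, M.c j b ∈ K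

/-- white vertices on faces of `K` -/
def SW : Finset W := univ.filter fun w => ∃ j, M.cw j w ∈ K

theorem mem_ES (p : B × Fin 3) :
    p ∈ ES M K ↔ M.c (p.2 + 1) p.1 ∈ K ∨ M.c (p.2 + 2) p.1 ∈ K := by simp [ES]

theorem mem_SB (b : B) : b ∈ SB M K ↔ ∃ j, M.c j b ∈ K := by simp [SB]

theorem mem_SW (w : W) : w ∈ SW M K ↔ ∃ j, M.cw j w ∈ K := by simp [SW]

theorem ES_SB {p : B × Fin 3} (h : p ∈ ES M K) : p.1 ∈ SB M K := by
  rw [mem_ES] at h
  rw [mem_SB]
  rcases h with h | h
  · exact ⟨_, h⟩
  · exact ⟨_, h⟩

theorem ES_SW {p : B × Fin 3} (h : p ∈ ES M K) : M.e p.2 p.1 ∈ SW M K := by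
  rw [mem_ES] at h
  rw [mem_SW]
  rcases h with h | h
  · exact ⟨p.2 + 1, by rw [M.cw_e _ _ (fne1 p.2).symm]; exact h⟩
  · exact ⟨p.2 + 2, by rw [M.cw_e _ _ (fne2 p.2).symm]; exact h⟩

theorem bool_count (s : Fin 3 → Prop) [DecidablePred s] :
    min 2 (univ.filter s).card + (if ∃ j, s j then 1 else 0) =
      (univ.filter fun i : Fin 3 => s (i + 1) ∨ s (i + 2)).card := by
  have h : ∀ t : Fin 3 → Bool, min 2 (univ.filter fun j => t j = true).card +
      (if ∃ j, t j = true then 1 else 0) =
      (univ.filter fun i : Fin 3 => t (i + 1) = true ∨ t (i + 2) = true).card := by decide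
  have h1 := h (fun j => decide (s j))
  simpa using h1

theorem sum_min : ∑ b : B, min 2 (nb M K b) + (SB M K).card = (ES M K).card := by
  classical
  have h1 : (SB M K).card = ∑ b : B, if ∃ j, M.c j b ∈ K then 1 else 0 := by
    rw [SB, card_filter]
  have h2 : (ES M K).card =
      ∑ b : B, (univ.filter fun i : Fin 3 => M.c (i + 1) b ∈ K ∨ M.c (i + 2) b ∈ K).card := by
    rw [ES, card_filter, Fintype.sum_prod_type]
    exact sum_congr rfl fun b _ => (card_filter _ _).symm
  rw [h1, h2, ← sum_add_distrib]
  exact sum_congr rfl fun b _ => bool_count (fun j => M.c j b ∈ K)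

open Classical in
/-- all edges at the blacks in `S` -/
theorem card_black (S : Finset B) :
    ((univ : Finset (B × Fin 3)).filter fun p => p.1 ∈ S).card = 3 * S.card := by
  classical
  have : ((univ : Finset (B × Fin 3)).filter fun p => p.1 ∈ S) = S ×ˢ univ := by
    ext p; simp
  rw [this, card_product, mul_comm]
  simp

open Classical in
theorem card_white (T : Finset W) :
    ((univ : Finset (B × Fin 3)).filter fun p => M.e p.2 p.1 ∈ T).card = 3 * T.card := by
  classical
  have h : ((univ : Finset (B × Fin 3)).filter fun p => M.e p.2 p.1 ∈ T).card =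
      (T ×ˢ (univ : Finset (Fin 3))).card := by
    refine card_bij (fun p _ => (M.e p.2 p.1, p.2)) ?_ ?_ ?_
    · intro p hp
      simp only [mem_filter, mem_univ, true_and] at hp
      simp [hp]
    · intro p _ q _ hpq
      simp only [Prod.mk.injEq] at hpq
      obtain ⟨h1, h2⟩ := hpq
      rw [h2] at h1
      exact Prod.ext ((M.e q.2).injective h1) h2
    · intro q hq
      simp only [mem_product, mem_univ, and_true] at hq
      exact ⟨((M.e q.2).symm q.1, q.2), by simp [hq], by simp⟩
  rw [h, card_product, mul_comm]
  simp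

end

section count

variable [Fintype B] [Fintype W] [Fintype V] [DecidableEq V] (M : PMap B W V) (K : Finset V)

open Classical in
/-- The counting: `h` chords, `x` cut edges with black end in `H`, `y` with white end in `H`. -/
theorem counts (b₀ : B) (h3 : Bz.C3 M) (h4 : Bz.C4 M) (hb0 : ∀ j, M.c j b₀ ∉ K)
    (hK : K.Nonempty) :
    (ES M K).card + 2 ≤ (SB M K).card + 2 * (SW M K).card := by
  set S := SB M K with hS
  set T := SW M K with hT
  set x := ((univ : Finset (B × Fin 3)).filter fun p => p.1 ∈ S ∧ M.e p.2 p.1 ∉ T).card with hx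
  set y := ((univ : Finset (B × Fin 3)).filter fun p => p.1 ∉ S ∧ M.e p.2 p.1 ∈ T).card with hy
  set z := ((univ : Finset (B × Fin 3)).filter fun p => p.1 ∈ S ∧ M.e p.2 p.1 ∈ T).card with hz
  have e1 : z + x = 3 * S.card := by
    rw [← card_black S, hz, hx, ← card_filter_add_card_filter_not
      (s := (univ : Finset (B × Fin 3)).filter fun p => p.1 ∈ S) (fun p => M.e p.2 p.1 ∈ T),
      filter_filter, filter_filter]
  have e2 : z + y = 3 * T.card := by
    rw [← card_white M T, hz, hy, ← card_filter_add_card_filter_not
      (s := (univ : Finset (B × Fin 3)).filter fun p => M.e p.2 p.1 ∈ T) (fun p => p.1 ∈ S),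
      filter_filter, filter_filter]
    congr 2
    · ext p; simp [and_comm]
    · ext p; simp [and_comm]
  have e3 : (ES M K).card ≤ z := by
    apply card_le_card
    intro p hp
    simp only [mem_filter, mem_univ, true_and]
    exact ⟨ES_SB M K hp, ES_SW M K hp⟩
  have e4 : Bz.cutc M (S : Set B) (T : Set W) = x + y := by
    have : Bz.cutc M (S : Set B) (T : Set W) =
        ((univ : Finset (B × Fin 3)).filter fun p => ¬ (p.1 ∈ S ↔ M.e p.2 p.1 ∈ T)).card := by
      unfold Bz.cutc
      refine card_bij (fun p _ => (p.2, p.1)) ?_ ?_ ?_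
      · intro p hp
        simp only [mem_filter, mem_univ, true_and, mem_coe] at hp ⊢
        exact hp
      · intro p _ q _ hpq
        simp only [Prod.mk.injEq] at hpq
        exact Prod.ext hpq.2 hpq.1
      · intro q hq
        simp only [mem_filter, mem_univ, true_and, mem_coe] at hq
        exact ⟨(q.2, q.1), by simpa using hq, rfl⟩
    rw [this, hx, hy, ← card_union_of_disjoint]
    · congr 1
      ext p
      simp only [mem_filter, mem_univ, true_and, mem_union]
      tauto
    · rw [disjoint_filter]
      intro p _ hp hp'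
      exact hp'.1 hp.1
  obtain ⟨v, hv⟩ := hK
  obtain ⟨j, b, hjb⟩ := M.surj v
  have hbS : b ∈ S := by
    rw [hS, mem_SB]; exact ⟨j, by rw [hjb]; exact hv⟩
  have hwT : M.e (j + 1) b ∈ T := by
    rw [hT, mem_SW]; exact ⟨j, by rw [M.cw_e1, hjb]; exact hv⟩
  have hb0S : b₀ ∉ S := by
    rw [hS, mem_SB]
    rintro ⟨j, hj⟩
    exact hb0 j hj
  have c3 := h3 (S : Set B) (T : Set W) (Or.inl ⟨b, hbS⟩) (Or.inl ⟨b₀, by simpa using hb0S⟩)
  rw [e4] at c3
  have hSpos : 1 ≤ S.card := card_pos.2 ⟨b, hbS⟩
  have hTpos : 1 ≤ T.card := card_pos.2 ⟨_, hwT⟩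
  by_cases hxy : x + y = 3
  · have c4 := h4 (S : Set B) (T : Set W) (by rw [e4, hxy])
    rw [Set.ncard_coe_finset, Set.ncard_coe_finset, ← coe_compl, ← coe_compl,
      Set.ncard_coe_finset, Set.ncard_coe_finset] at c4
    have hcb := card_compl S
    have hcw := card_compl T
    have hBW : Fintype.card B = Fintype.card W := Fintype.card_congr (M.e 0)
    have hSc : 1 ≤ Sᶜ.card := card_pos.2 ⟨b₀, by simpa using hb0S⟩
    have h5 : S.card + Sᶜ.card = Fintype.card B := card_add_card_compl S
    have h6 : T.card + Tᶜ.card = Fintype.card W := card_add_card_compl T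
    omega
  · omega

end count

section main

variable [Fintype B] [Fintype W] [Fintype V] [DecidableEq V] (M : PMap B W V)

theorem hdual (hM : M.Conn) (A : V → ℝ)
    (h : ∀ (b : B) (i : Fin 3), A (M.c (i + 1) b) = A (M.c (i + 2) b)) (v v' : V) :
    A v = A v' := by
  have h1 : ∀ b j, A (M.c j b) = A (M.c 0 b) := by
    intro b j
    have h0 := h b 0
    have h1 := h b 1
    have h2 := h b 2
    fin_cases j
    · rfl
    · simpa using h2.symm
    · simpa using h1
  have h2 : ∀ b b', A (M.c 0 b) = A (M.c 0 b') := by
    intro b b'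
    induction hM b b' with
    | rel x y hxy =>
      obtain ⟨j, hj⟩ := hxy
      rw [← h1 x j, hj, h1]
    | refl x => rfl
    | symm x y _ ih => exact ih.symm
    | trans x y z _ _ ih1 ih2 => exact ih1.trans ih2
  obtain ⟨j, b, rfl⟩ := M.surj v
  obtain ⟨j', b', rfl⟩ := M.surj v'
  rw [h1, h1 b', h2]

theorem const_face (K : Finset V) (s : B → ℝ) (t : W → ℝ)
    (hst : ∀ p ∈ ES M K, s p.1 = t (M.e p.2 p.1)) (j : Fin 3) (x y : B) (hx : M.c j x ∈ K)
    (hxy : M.c j x = M.c j y) : s x = s y := by
  have key : ∀ x y, Relation.EqvGen (fun x y => M.e (j + 1) y = M.e (j + 2) x) x y →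
      M.c j x ∈ K → s x = s y := by
    intro x y h
    induction h with
    | rel x y h =>
      intro hx
      have hy : M.c j y ∈ K := by rw [M.step j x y h]; exact hx
      have h1 := hst (x, j + 2) (by
        rw [mem_ES]; left; simp only [f21]; exact hx)
      have h2 := hst (y, j + 1) (by
        rw [mem_ES]; right; simp only [f12]; exact hy)
      simp only at h1 h2
      rw [h1, h2, h]
    | refl x => intro _; rfl
    | symm x y h ih =>
      intro hy
      exact (ih (by rw [M.c_of_eqvGen h]; exact hy)).symm
    | trans x y z h1 _ ih1 ih2 =>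
      intro hx
      exact (ih1 hx).trans (ih2 (by rw [← M.c_of_eqvGen h1]; exact hx))
  exact key x y (M.exact j x y hxy) hx

/-- the Hall condition -/
theorem hall (hM : M.Sph) (h3 : Bz.C3 M) (h4 : Bz.C4 M) (b₀ : B) :
    ∀ (n : ℕ) (K : Finset V), K.card = n → (∀ j, M.c j b₀ ∉ K) →
      2 * K.card ≤ ∑ b : B, min 2 (nb M K b) := by
  intro n
  induction n using Nat.strong_induction_on with
  | _ n ih =>
  intro K hn hb0
  rcases K.eq_empty_or_nonempty with rfl | hK
  · simp
  by_contra hcon
  have hconn : ∀ (s : B → ℝ) (t : W → ℝ), (∀ p ∈ ES M K, s p.1 = t (M.e p.2 p.1)) →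
      ∃ r, (∀ b ∈ SB M K, s b = r) ∧ ∀ w ∈ SW M K, t w = r := by
    intro s t hst
    have hcf := const_face M K s t hst
    obtain ⟨v0, hv0⟩ := hK
    obtain ⟨j0, x0, hx0⟩ := M.surj v0
    classical
    let K1 := K.filter fun v => ∀ j b, M.c j b = v → s b = s x0
    let K2 := K.filter fun v => ¬ ∀ j b, M.c j b = v → s b = s x0
    have hv01 : v0 ∈ K1 := by
      simp only [K1, mem_filter]
      refine ⟨hv0, ?_⟩
      intro j b hb
      have hj : j0 = j := M.cls _ _ x0 b (by rw [hx0, hb])
      subst hj
      exact hcf j0 b x0 (by rw [hb]; exact hv0) (by rw [hb, hx0])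
    have h1 : K1.card + K2.card = K.card := card_filter_add_card_filter_not _
    have hK2 : K2 = ∅ := by
      by_contra hne
      have hpos2 : 1 ≤ K2.card := card_pos.2 (nonempty_iff_ne_empty.2 hne)
      have hpos1 : 1 ≤ K1.card := card_pos.2 ⟨v0, hv01⟩
      have i1 := ih K1.card (by omega) K1 rfl (fun j hj => hb0 j (mem_filter.1 hj).1)
      have i2 := ih K2.card (by omega) K2 rfl (fun j hj => hb0 j (mem_filter.1 hj).1)
      have i3 : ∑ b : B, min 2 (nb M K b) =
          ∑ b : B, min 2 (nb M K1 b) + ∑ b : B, min 2 (nb M K2 b) := by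
        rw [← sum_add_distrib]
        refine sum_congr rfl fun b _ => ?_
        by_cases hb : s b = s x0
        · have e2 : nb M K2 b = 0 := by
            unfold nb
            rw [card_eq_zero, filter_eq_empty_iff]
            intro j _ hj
            simp only [K2, mem_filter] at hj
            apply hj.2
            intro j' b' h'
            have hj' : j' = j := M.cls _ _ _ _ h'
            subst hj'
            rw [← hb]
            exact hcf j' b' b (by rw [h']; exact hj.1) h'
          have e1 : nb M K1 b = nb M K b := by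
            unfold nb
            congr 1
            ext j
            simp only [mem_filter, mem_univ, true_and, K1]
            constructor
            · exact fun h => h.1
            · intro h
              refine ⟨h, ?_⟩
              intro j' b' h'
              have hj' : j' = j := M.cls _ _ _ _ h'
              subst hj'
              rw [← hb]
              exact hcf j' b' b (by rw [h']; exact h) h'
          rw [e1, e2]
          simp
        · have e1 : nb M K1 b = 0 := by
            unfold nb
            rw [card_eq_zero, filter_eq_empty_iff]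
            intro j _ hj
            simp only [K1, mem_filter] at hj
            exact hb (hj.2 j b rfl)
          have e2 : nb M K2 b = nb M K b := by
            unfold nb
            congr 1
            ext j
            simp only [mem_filter, mem_univ, true_and, K2]
            constructor
            · exact fun h => h.1
            · intro h
              exact ⟨h, fun h' => hb (h' j b rfl)⟩
          rw [e1, e2]
          simp
      omega
    have hall : ∀ b ∈ SB M K, s b = s x0 := by
      intro b hb
      rw [mem_SB] at hb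
      obtain ⟨j, hj⟩ := hb
      by_contra hne
      have : M.c j b ∈ K2 := by
        simp only [K2, mem_filter]
        exact ⟨hj, fun h' => hne (h' j b rfl)⟩
      rw [hK2] at this
      simp at this
    refine ⟨s x0, hall, ?_⟩
    intro w hw
    rw [mem_SW] at hw
    obtain ⟨j, hj⟩ := hw
    have hE : (((M.e (j + 1)).symm w, j + 1) : B × Fin 3) ∈ ES M K := by
      rw [mem_ES]
      right
      simp only [f12]
      exact hj
    have h5 := hst _ hE
    simp only [Equiv.apply_symm_apply] at h5
    rw [← h5]
    exact hall _ (ES_SB M K hE)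
  have hr := H183.rank_ineq (lab M) (SB M K) (SW M K) (ES M K) K hconn
    (by
      intro p hp
      have h1 := (mem_ES M K p).not.1 hp
      push Not at h1
      exact h1)
    (fun A hA v v' => hdual M hM.conn A hA v v')
    ⟨M.c 0 b₀, hb0 0⟩
  have hc := counts M K b₀ h3 h4 hb0 hK
  have hs := sum_min M K
  omega

end main

theorem pairStmt : Bz.PairStmt := by
  intro B W V _ _ _ M hM h3 h4 b₀
  classical
  have hcV : Fintype.card (Bz.VOff M b₀) = Fintype.card (Bz.BOff b₀) := by
    have h1 : Fintype.card (Bz.BOff b₀) = Fintype.card B - 1 := by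
      have := Fintype.card_subtype_compl (fun b : B => b = b₀)
      rw [Fintype.card_subtype_eq] at this
      exact this
    have h2 : Fintype.card (Bz.VOff M b₀) = Fintype.card V - 3 := by
      have h3 : Fintype.card (Bz.VOff M b₀) =
          ((univ : Finset V) \ (univ.image fun j : Fin 3 => M.c j b₀)).card := by
        rw [Fintype.card_subtype]
        congr 1
        ext v
        simp
      have hinj : Function.Injective fun j : Fin 3 => M.c j b₀ := by
        intro i j h
        exact M.cls _ _ _ _ h
      rw [h3, card_sdiff_of_subset (subset_univ _), card_univ, card_image_of_injective _ hinj]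
      simp
    have h5 := hM.card
    have h6 : 0 < Fintype.card B := Fintype.card_pos_iff.2 ⟨b₀⟩
    omega
  obtain ⟨f, g, φ, ψ, hfg, hf, hg⟩ := H484.two_matchings_option (Bz.Fo M b₀) hcV.symm (by
    intro K
    have h1 := hall M hM h3 h4 b₀ _ (K.map (Function.Embedding.subtype _)) rfl (by
      intro j hj
      simp only [mem_map, Function.Embedding.coe_subtype] at hj
      obtain ⟨v, _, hv⟩ := hj
      exact v.2 j hv.symm)
    rw [card_map] at h1
    refine h1.trans ?_
    have h2 : ∀ b : B, b ≠ b₀ → True := fun _ _ => trivial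
    have h0 : nb M (K.map (Function.Embedding.subtype _)) b₀ = 0 := by
      unfold nb
      rw [card_eq_zero, filter_eq_empty_iff]
      intro j _ hj
      simp only [mem_map, Function.Embedding.coe_subtype] at hj
      obtain ⟨v, _, hv⟩ := hj
      exact v.2 j hv.symm
    rw [← sum_erase_add _ _ (mem_univ b₀), h0]
    simp only [Nat.min_zero, add_zero]
    have h4 : ∑ x ∈ univ.erase b₀, min 2 (nb M (K.map (Function.Embedding.subtype _)) x) =
        ∑ x : Bz.BOff b₀, min 2 (nb M (K.map (Function.Embedding.subtype _)) x.1) := by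
      refine sum_bij' (fun x hx => (⟨x, (mem_erase.1 hx).1⟩ : Bz.BOff b₀)) (fun x _ => x.1)
        ?_ ?_ ?_ ?_ ?_
      · intro a ha; exact mem_univ _
      · intro a ha; exact mem_erase.2 ⟨a.2, mem_univ _⟩
      · intro a ha; rfl
      · intro a ha; rfl
      · intro a ha; rfl
    rw [h4]
    refine le_of_eq (sum_congr rfl fun b _ => ?_)
    congr 1
    unfold nb
    congr 1
    ext j
    simp only [mem_filter, mem_univ, true_and, mem_map, Function.Embedding.coe_subtype]
    constructor
    · rintro ⟨v, hv, h5⟩
      refine ⟨v, hv, ?_⟩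
      unfold Bz.Fo
      rw [dif_pos (by intro i hi; exact v.2 i (by rw [hi, h5]))]
      congr 1
      exact Subtype.ext h5.symm
    · rintro ⟨v, hv, h5⟩
      refine ⟨v, hv, ?_⟩
      unfold Bz.Fo at h5
      split_ifs at h5 with h6
      rw [← Option.some.inj h5])
  exact ⟨f, g, ⟨φ, hf⟩, ⟨ψ, hg⟩, hfg⟩

end Vale.Agent.P039.H370
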